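import Vale.Agent.P354E3.Ten
import Vale.Agent.P354M2.Hb

/-!
Uniform geometry of the data on the slices, and continuity in the parameters.
-/

open scoped ContDiff
open Set Filter Topology Matrix

noncomputable section

namespace Vale.Agent.P354E3

open Vale.Agent.P354I (X P3 wn pm)
open Vale.Agent.P354RG Vale.Agent.P354M2
open Vale.Agent.P354T (Sm qf wt UP dT_smul dP_smul rnd_smul)

theorem wn_hom {m : ℕ} {F : X → ℝ} {C : ℝ} (hF : Sm F)
    (h : ∀ t > 0, ∀ y, F ((t : ℝ) • y) = t⁻¹ ^ 2 * F y)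
    (hC : ∀ u : X, ‖u‖ = 1 → ∀ j ≤ m, ‖iteratedFDeriv ℝ j F u‖ ≤ C) :
    wn 0 m F ≤ ENNReal.ofReal ((m + 1) * C) := by
  refine wn_of_hb fun y hy j hj => ?_
  have t0 : 0 < ‖y‖ := norm_pos_iff.2 hy
  have hu : ‖y‖⁻¹ • y ≠ 0 := smul_ne_zero (inv_ne_zero t0.ne') hy
  have u1 : ‖‖y‖⁻¹ • y‖ = 1 := by rw [norm_smul, norm_inv, norm_norm, inv_mul_cancel₀ t0.ne']
  have k1 := hC _ u1 j hj
  have e : F = fun w => ‖y‖ ^ 2 • F (‖y‖ • w) := funext fun w => by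
    rw [h _ t0, smul_eq_mul, ← mul_assoc, ← mul_pow, mul_inv_cancel₀ t0.ne', one_pow, one_mul]
  have s : ContDiffAt ℝ j (fun w => F (‖y‖ • w)) (‖y‖⁻¹ • y) :=
    (at0 (ContDiffOn.comp hF (contDiff_const_smul _).contDiffOn
      fun w hw => smul_ne_zero t0.ne' hw) hu).of_le (le_inf j)
  rw [e, iteratedFDeriv_const_smul_apply' s, it_smul t0.ne', smul_inv_smul₀ t0.ne', norm_smul,
    norm_smul, norm_pow, norm_pow, norm_norm] at k1
  rw [show wt 0 0 y = ‖y‖ ^ 2 by simp [wt]]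
  rwa [le_div_iff₀' (by positivity)]

theorem it_cont {A : Type} [NormedAddCommGroup A] [NormedSpace ℝ A] {Θ : A × X → ℝ}
    (h : ∀ q : A × X, q.2 ≠ 0 → ContDiffAt ℝ ∞ Θ q) (j : ℕ) {q : A × X} (hq : q.2 ≠ 0) :
    ContinuousAt (fun q : A × X => iteratedFDeriv ℝ j (fun y => Θ (q.1, y)) q.2) q := by
  have o : IsOpen {q : A × X | q.2 ≠ 0} := isOpen_ne_fun continuous_snd continuous_const
  refine (((ContinuousMultilinearMap.compContinuousLinearMapL
    fun _ : Fin j => ContinuousLinearMap.inr ℝ A X).continuous.continuousAt).comp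
      ((h q hq).continuousAt_iteratedFDeriv (le_inf j))).congr ?_
  filter_upwards [o.mem_nhds hq] with r hr
  have s : ContDiffOn ℝ ∞ (fun z => Θ (z + (r.1, 0))) {q : A × X | q.2 ≠ 0} := fun z hz =>
    ((h (z + (r.1, 0)) (by simpa using hz)).comp z
      (contDiffAt_id.add contDiffAt_const)).contDiffWithinAt
  have o' := o.preimage (ContinuousLinearMap.inr ℝ A X).continuous
  have a := (ContinuousLinearMap.inr ℝ A X).iteratedFDerivWithin_comp_right s o.uniqueDiffOn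
    o'.uniqueDiffOn (x := r.2) hr (le_inf j)
  rw [iteratedFDerivWithin_of_isOpen j o' hr, iteratedFDerivWithin_of_isOpen j o
    (show ContinuousLinearMap.inr ℝ A X r.2 ∈ _ from hr), iteratedFDeriv_comp_add_right] at a
  simpa [Function.comp_def] using a.symm

theorem zh_smul {t : ℝ} (ht : 0 < t) (y : X) : zh (t • y) = zh y := by
  rw [zh, zh, norm_smul, Real.norm_of_nonneg ht.le, PiLp.smul_apply, smul_eq_mul,
    mul_div_mul_left _ _ ht.ne']

theorem ten_smul (c : ℕ → ℝ → ℝ) {t : ℝ} (ht : 0 < t) (y : X) (i j : Fin 3) :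
    ten c (t • y) i j = t⁻¹ ^ 2 * ten c y i j := by
  simp only [ten, of_apply, frm, dZ, zh_smul ht, dT_smul ht.ne', dP_smul ht.ne', rnd_smul ht.ne',
    norm_smul, Real.norm_of_nonneg ht.le]
  ring

variable {G : ℕ → Y3 → ℝ} {k ε0 δ : ℝ} {p0 : P3}

/-- The components of h and K as functions of ((p, t), y). -/
def co (k : ℝ) (G : ℕ → Y3 → ℝ) (a : Bool × Fin 3 × Fin 3) (q : (P3 × ℝ) × X) : ℝ :=
  bif a.1 then (kd k G q.1.1 q.1.2).h q.2 a.2.1 a.2.2 else (kd k G q.1.1 q.1.2).K q.2 a.2.1 a.2.2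

theorem co_at (h : IsG p0 k ε0 δ G) (a : Bool × Fin 3 × Fin 3) (q : (P3 × ℝ) × X)
    (hq : q.2 ≠ 0) : ContDiffAt ℝ ∞ (co k G a) q := by
  obtain ⟨_ | _, i, j⟩ := a
  exacts [(kd_at h hq i j).2, (kd_at h hq i j).1]

theorem co_smul (a : Bool × Fin 3 × Fin 3) (r : P3 × ℝ) {t : ℝ} (ht : 0 < t) (y : X) :
    co k G a (r, t • y) = t⁻¹ ^ 2 * co k G a (r, y) := by
  obtain ⟨_ | _, i, j⟩ := a
  · simp only [co, cond_false, kd_K, ten_smul _ ht]
  · simp only [co, cond_true, kd_h, ten_smul _ ht]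

theorem sph_ne {y : X} (hy : y ∈ Metric.sphere (0 : X) 1) : y ≠ 0 := fun e => by simp [e] at hy

theorem up_unif (h : IsG p0 k ε0 δ G) {S : Set (P3 × ℝ)} (hS : IsCompact S) :
    ∃ c > 0, ∀ p t, (p, t) ∈ S → UP (kd k G p t) c := by
  have hc : ContinuousOn (fun p : ((P3 × ℝ) × X) × (Fin 3 → ℝ) =>
      ∑ i, ∑ j, p.2 i * co k G (true, i, j) p.1 * p.2 j)
      ((S ×ˢ Metric.sphere 0 1) ×ˢ Metric.sphere 0 1) := by
    refine continuousOn_finsetSum _ fun i _ => continuousOn_finsetSum _ fun j _ => ?_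
    refine ContinuousOn.mul (ContinuousOn.mul (by fun_prop) fun p hp => ?_) (by fun_prop)
    exact ((co_at h _ p.1 (sph_ne hp.1.2)).continuousAt.comp continuousAt_fst).continuousWithinAt
  obtain ⟨c, c0, c1⟩ := ((hS.prod (isCompact_sphere (0 : X) 1)).prod
    (isCompact_sphere (0 : Fin 3 → ℝ) 1)).exists_forall_le' hc (a := 0) fun p hp =>
      P354T.qf_pos ((pdk _ _ _ _ _ h p.1.1.1 p.1.1.2).2 _ (sph_ne hp.1.2)).1 fun e => by
        have := hp.2
        rw [e] at this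
        simp at this
  refine ⟨c / 3, by positivity, fun p t hr y hy v => ?_⟩
  by_cases hv : v = 0
  · simp [hv, qf]
  have n0 : 0 < ‖v‖ := norm_pos_iff.2 hv
  have y0 : 0 < ‖y‖ := norm_pos_iff.2 hy
  have h1 := c1 (((p, t), ‖y‖⁻¹ • y), ‖v‖⁻¹ • v)
    ⟨⟨hr, by simp [norm_smul, y0.ne']⟩, by simp [norm_smul, n0.ne']⟩
  simp only [co_smul _ _ (inv_pos.2 y0), inv_inv] at h1
  have h2 : ‖y‖ ^ 2 * qf ((kd k G p t).h y) v = ‖v‖ ^ 2 * ∑ i, ∑ j,
      (‖v‖⁻¹ • v) i * (‖y‖ ^ 2 * co k G (true, i, j) ((p, t), y)) * (‖v‖⁻¹ • v) j := by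
    simp only [qf, Fin.sum_univ_three, Pi.smul_apply, smul_eq_mul, co, cond_true]
    field_simp
  have h3 : ∀ i, v i ^ 2 ≤ ‖v‖ ^ 2 := fun i => by
    rw [← sq_abs]
    exact pow_le_pow_left₀ (abs_nonneg _) (norm_le_pi_norm v i) 2
  rw [h2, Fin.sum_univ_three fun i => v i ^ 2]
  have h4 := mul_le_mul_of_nonneg_left h1 (sq_nonneg ‖v‖)
  have h5 := mul_le_mul_of_nonneg_left (add_le_add (add_le_add (h3 0) (h3 1)) (h3 2)) c0.le
  linarith

theorem co_h (p : P3) (t : ℝ) (i j : Fin 3) :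
    (fun y => (kd k G p t).h y i j) = fun y => co k G (true, i, j) ((p, t), y) := rfl
theorem co_K (p : P3) (t : ℝ) (i j : Fin 3) :
    (fun y => (kd k G p t).K y i j) = fun y => co k G (false, i, j) ((p, t), y) := rfl

section
variable {Θ : (P3 × ℝ) × X → ℝ} (h : ∀ q : (P3 × ℝ) × X, q.2 ≠ 0 → ContDiffAt ℝ ∞ Θ q)
  (hs : ∀ r (t : ℝ), 0 < t → ∀ y : X, Θ (r, t • y) = t⁻¹ ^ 2 * Θ (r, y))
include h

theorem ev_close (j : ℕ) (p0 : P3) (T : ℝ) {η : ℝ} (hη : 0 < η) :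
    ∀ᶠ p in 𝓝 p0, ∀ z ∈ Icc 0 T ×ˢ Metric.sphere (0 : X) 1,
      ‖iteratedFDeriv ℝ j (fun y => Θ ((p, z.1), y)) z.2 -
        iteratedFDeriv ℝ j (fun y => Θ ((p0, z.1), y)) z.2‖ < η := by
  refine (isCompact_Icc.prod (isCompact_sphere (0 : X) 1)).eventually_forall_of_forall_eventually
    fun z hz => ?_
  have c := it_cont h j (q := ((p0, z.1), z.2)) (sph_ne hz.2)
  have c1 := c.comp (f := fun w : P3 × ℝ × X => ((w.1, w.2.1), w.2.2)) (x := (p0, z))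
    (by fun_prop)
  have c2 := c.comp (f := fun w : P3 × ℝ × X => ((p0, w.2.1), w.2.2)) (x := (p0, z))
    (by fun_prop)
  exact (c1.sub c2).norm.eventually_lt_const (by simpa using hη)

theorem th_sm (r : P3 × ℝ) : Sm fun y => Θ (r, y) :=
  fun y hy => (sl_at (h (r, y) hy)).contDiffWithinAt

include hs

theorem hom_bd {S : Set (P3 × ℝ)} (hS : IsCompact S) (m : ℕ) :
    ∃ B, ∀ r ∈ S, wn 0 m (fun y => Θ (r, y)) ≤ ENNReal.ofReal B := by
  choose B hB using fun j : Fin (m + 1) =>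
    (hS.prod (isCompact_sphere (0 : X) 1)).exists_bound_of_continuousOn fun q hq =>
      (it_cont h j (sph_ne hq.2)).continuousWithinAt
  exact ⟨(m + 1) * ∑ a, |B a|, fun r hr => wn_hom (th_sm h r) (hs r) fun u hu j hj =>
    ((hB ⟨j, by omega⟩ (r, u) ⟨hr, mem_sphere_zero_iff_norm.2 hu⟩).trans
      (le_abs_self _)).trans (Finset.single_le_sum (f := fun a => |B a|)
        (fun _ _ => abs_nonneg _) (Finset.mem_univ _))⟩

theorem hom_close (p0 : P3) (T : ℝ) (m : ℕ) {η : ℝ} (hη : 0 < η) : ∀ᶠ p in 𝓝 p0, ∀ t ∈ Icc 0 T,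
    wn 0 m (fun y => Θ ((p, t), y) - Θ ((p0, t), y)) ≤ ENNReal.ofReal η := by
  filter_upwards [eventually_all.2 fun j : Fin (m + 1) => ev_close h j p0 T
    (show 0 < η / (m + 1) by positivity)] with p hp t ht
  refine (wn_hom (C := η / (m + 1)) ((th_sm h _).sub (th_sm h _))
    (fun _ ht y => by simp only [hs _ _ ht, mul_sub]) fun u hu j hj => ?_).trans_eq ?_
  · have u0 := mem_sphere_zero_iff_norm.2 hu
    rw [P354T.iter_sub (th_sm h _) (th_sm h _) j (sph_ne u0)]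
    exact (hp ⟨j, by omega⟩ (t, u) ⟨ht, u0⟩).le
  · congr 1
    field_simp

end

theorem geo1 (h : IsG p0 k ε0 δ G) (T : ℝ) (m : ℕ) :
    ∃ c > 0, ∃ B, ∀ p ∈ Metric.ball p0 ε0, ∀ t ∈ Icc 0 T, P354I.Geo c B m (kd k G p t) := by
  have hS := (isCompact_closedBall p0 ε0).prod (isCompact_Icc (a := 0) (b := T))
  obtain ⟨c, c0, c1⟩ := up_unif h hS
  choose B hB using fun a => hom_bd (co_at h a) (fun r _ ht => co_smul a r ht) hS m
  refine ⟨c, c0, ∑ a, |B a|, fun p hp t ht => ?_⟩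
  have hr : (p, t) ∈ Metric.closedBall p0 ε0 ×ˢ Icc 0 T := ⟨Metric.ball_subset_closedBall hp, ht⟩
  have k : ∀ a, wn 0 m (fun y => co k G a ((p, t), y)) ≤ ENNReal.ofReal (∑ a, |B a|) :=
    fun a => (hB a _ hr).trans (ENNReal.ofReal_le_ofReal ((le_abs_self _).trans
      (Finset.single_le_sum (f := fun a => |B a|) (fun _ _ => abs_nonneg _) (Finset.mem_univ _))))
  exact ⟨pdk _ _ _ _ _ h p t, c1 p t hr, fun i j =>
    ⟨(co_h p t i j).symm ▸ k _, (co_K p t i j).symm ▸ k _⟩⟩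

theorem geo2 (h : IsG p0 k ε0 δ G) (T : ℝ) (m : ℕ) {η : ℝ} (hη : 0 < η) :
    ∃ ε > 0, ∀ p ∈ Metric.ball p0 ε, ∀ t ∈ Icc 0 T,
      pm 0 m (kd k G p t) (kd k G p0 t) ≤ ENNReal.ofReal η := by
  obtain ⟨ε, e0, e1⟩ := Metric.eventually_nhds_iff_ball.1 (eventually_all.2 fun a =>
    hom_close (co_at h a) (fun r _ ht => co_smul a r ht) p0 T m (show 0 < η / 18 by positivity))
  refine ⟨ε, e0, fun p hp t ht => ?_⟩
  rw [show η = 18 * (η / 18) by ring]
  refine P354T.pm_le_of (by positivity) fun i j => ?_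
  simp only [congrFun (co_h p t i j), congrFun (co_K p t i j), congrFun (co_h p0 t i j),
    congrFun (co_K p0 t i j)]
  exact ⟨e1 p hp _ t ht, e1 p hp _ t ht⟩

/-- **GEO.** -/
theorem geo : GEO := fun _ _ _ _ _ h => ⟨geo1 h, fun T m _ hη => geo2 h T m hη⟩

end Vale.Agent.P354E3
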