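import Vale.Agent.P354RG.Defs
import Vale.Agent.P354JK.Main

/-!
The stationary axisymmetric tensors in the charts; smoothness and positivity of the data.
-/

open scoped ContDiff
open Set Filter Topology Matrix

noncomputable section

namespace Vale.Agent.P354E3

open Vale.Agent.P354H (X3 e)
open Vale.Agent.P354I (X ee dT dP)
open Vale.Agent.P354RG Vale.Agent.P354JK
open Vale.Agent.P354J (Phi pb PDy)
open Vale.Agent.P354T (Sm qf)

theorem ten_sum (c : ℕ → ℝ → ℝ) (y v w : X) : ∑ l, (∑ k, v k * ten c y k l) * w l =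
    frm (fun n => c n (zh y)) (dT y v) (dZ y v) (dP y v) (dT y w) (dZ y w) (dP y w)
      (P354I.rnd y v w) := by
  simp only [ten, of_apply, frm, dZ, P354I.rnd, dT, dP, inner3, ee, Fin.sum_univ_three,
    PiLp.single_apply, Fin.isValue, Fin.reduceEq, if_true, if_false]
  ring

theorem zh_phi (σ : Bool) (z : X3) : zh (Phi σ z) = P354R.ht σ z.2 := by
  rw [zh, norm_phi, phi2, mul_div_cancel_left₀ _ (Real.exp_pos z.1).ne']
  rfl

theorem dZ_DP (σ : Bool) (z A : X3) : dZ (Phi σ z) (DP σ z A) = P354R.dht σ z.2 A.2 := by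
  rw [dZ, zh_phi, dT_DP, norm_phi, (DP_eq σ z A).2.2, mul_div_cancel_left₀ _ (Real.exp_pos z.1).ne']
  simp only [P354R.ht, P354R.dht, P354E.sg, qq]
  ring

/-- **TEN.** -/
theorem ten_pb : TEN := fun c σ z i j => by
  rw [pb_apply, ten_sum, zh_phi, dT_DP, dT_DP, dZ_DP, dZ_DP, dP_DP, dP_DP, rnd_DP]
  rfl

theorem zh_mem (y : X) : zh y ∈ Icc (-1 : ℝ) 1 := by
  rw [mem_Icc, ← abs_le, zh, abs_div, abs_norm]
  exact div_le_one_of_le₀ (PiLp.norm_apply_le y 2) (norm_nonneg _)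

theorem ten_symm (c : ℕ → ℝ → ℝ) (y : X) : (ten c y).IsSymm := by
  ext i j
  simp only [ten, transpose_apply, of_apply, frm, P354I.rnd, real_inner_comm (ee i)]
  ring

section
variable {A : Type} [NormedAddCommGroup A] [NormedSpace ℝ A]

theorem zh_at {q : A × X} (hq : q.2 ≠ 0) : ContDiffAt ℝ ∞ (fun q : A × X => zh q.2) q :=
  ((EuclideanSpace.proj 2 : X →L[ℝ] ℝ).contDiff.comp contDiff_snd).contDiffAt.div
    (contDiffAt_snd.norm ℝ hq) (norm_ne_zero_iff.2 hq)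

/-- Joint smoothness in a parameter and the point. -/
theorem ten_at {c : A → ℕ → ℝ → ℝ} {q : A × X} (hq : q.2 ≠ 0)
    (hc : ∀ n, ContDiffAt ℝ ∞ (fun r : A × ℝ => c r.1 n r.2) (q.1, zh q.2)) (i j : Fin 3) :
    ContDiffAt ℝ ∞ (fun q : A × X => ten (c q.1) q.2 i j) q := by
  have h0 : ∀ n, ContDiffAt ℝ ∞ (fun q : A × X => c q.1 n (zh q.2)) q := fun n =>
    ContDiffAt.comp (g := fun r : A × ℝ => c r.1 n r.2) (f := fun q : A × X => (q.1, zh q.2)) q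
      (hc n) (contDiffAt_fst.prodMk (zh_at hq))
  have hn : ContDiffAt ℝ ∞ (fun q : A × X => ‖q.2‖) q := contDiffAt_snd.norm ℝ hq
  have n0 := norm_ne_zero_iff.2 hq
  have hp : ∀ k, ContDiffAt ℝ ∞ (fun q : A × X => q.2 k) q := fun k =>
    ((EuclideanSpace.proj k : X →L[ℝ] ℝ).contDiff.comp contDiff_snd).contDiffAt
  have hT : ∀ v, ContDiffAt ℝ ∞ (fun q : A × X => dT q.2 v) q := fun v =>
    (contDiffAt_snd.inner ℝ contDiffAt_const).div (hn.pow 2) (pow_ne_zero 2 n0)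
  have hZ : ∀ v, ContDiffAt ℝ ∞ (fun q : A × X => dZ q.2 v) q := fun v =>
    (contDiffAt_const.div hn n0).sub ((zh_at hq).mul (hT v))
  have hP : ∀ v, ContDiffAt ℝ ∞ (fun q : A × X => dP q.2 v) q := fun v =>
    (((hp 0).mul contDiffAt_const).sub ((hp 1).mul contDiffAt_const)).div (hn.pow 2)
      (pow_ne_zero 2 n0)
  have hR : ∀ v w, ContDiffAt ℝ ∞ (fun q : A × X => P354I.rnd q.2 v w) q := fun v w =>
    (contDiffAt_const.div (hn.pow 2) (pow_ne_zero 2 n0)).sub ((hT v).mul (hT w))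
  exact ((((((h0 0).mul ((hT _).mul (hT _))).add ((h0 1).mul (hR _ _))).add
    ((h0 2).mul ((hZ _).mul (hZ _)))).add
    ((h0 3).mul (((hP _).mul (hZ _)).add ((hZ _).mul (hP _))))).add
    ((h0 4).mul (((hT _).mul (hP _)).add ((hP _).mul (hT _))))).add
    ((h0 5).mul (((hT _).mul (hZ _)).add ((hZ _).mul (hT _))))

end

variable {G : ℕ → Y3 → ℝ} {k : ℝ}

theorem fd_sm {f : Y3 → ℝ} (hf : ContDiff ℝ ∞ f) (v : Y3) :
    ContDiff ℝ ∞ fun c => fderiv ℝ f c v :=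
  (hf.fderiv_right (m := ∞) (by simp)).clm_apply contDiff_const

theorem bet_sm (hG : ∀ i, ContDiff ℝ ∞ (G i)) : ContDiff ℝ ∞ (bet G) :=
  contDiff_snd.fst.mul (hG 4)

theorem dt_sm {f : Y3 → ℝ} (hf : ContDiff ℝ ∞ f) : ContDiff ℝ ∞ (P354RG.dt k f) :=
  (contDiff_const.mul contDiff_snd.fst).neg.mul (fd_sm hf _)

theorem w_sm : ContDiff ℝ ∞ fun c : Y3 => 1 - c.2.2 ^ 2 := by fun_prop

theorem unt_sm (hG : ∀ i, ContDiff ℝ ∞ (G i)) {f : Y3 → ℕ → ℝ}
    (hf : ∀ n, ContDiff ℝ ∞ fun c => f c n) (n : ℕ) :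
    ContDiff ℝ ∞ fun c => unt (bet G c) (1 - c.2.2 ^ 2) (f c) n := by
  have b := bet_sm hG
  match n with
  | 0 =>
    exact ((hf 0).add (((hf 1).mul (b.pow 2)).mul w_sm)).sub
      (((contDiff_const.mul (hf 4)).mul b).mul w_sm)
  | 4 => exact (hf 4).sub (b.mul (hf 1))
  | 5 => exact (hf 5).sub ((b.mul w_sm).mul (hf 3))
  | 1 | 2 | 3 | _ + 6 => exact hf _

theorem cH_sm (hG : ∀ i, ContDiff ℝ ∞ (G i)) (n : ℕ) : ContDiff ℝ ∞ (cH G n) := by
  refine unt_sm hG (fun n => ?_) n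
  match n with
  | 0 => exact contDiff_snd.fst.mul (hG 0)
  | 1 | 2 | 3 => exact hG _
  | _ + 4 => exact contDiff_const

theorem kH_sm (hG : ∀ i, ContDiff ℝ ∞ (G i)) (n : ℕ) : ContDiff ℝ ∞ fun c => kH k G c n := by
  have b := bet_sm hG
  match n with
  | 0 => exact dt_sm (contDiff_snd.fst.mul (hG 0))
  | 1 => exact dt_sm (hG 1)
  | 2 => exact (dt_sm (hG 2)).add (((contDiff_const.mul (fd_sm b _)).mul (hG 3)).mul w_sm)
  | 3 => exact (dt_sm (hG 3)).add ((fd_sm b _).mul (hG 1))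
  | 4 => exact ((dt_sm b).mul (hG 1)).neg
  | 5 => exact (((dt_sm b).mul (hG 3)).mul w_sm).neg
  | _ + 6 => exact contDiff_const

theorem cK_at (hG : ∀ i, ContDiff ℝ ∞ (G i)) (n : ℕ) {c : Y3} (h : 0 < c.2.1 * G 0 c) :
    ContDiffAt ℝ ∞ (cK k G n) c :=
  (unt_sm hG (kH_sm hG) n).contDiffAt.div
    (contDiffAt_const.mul ((contDiff_snd.fst.mul (hG 0)).contDiffAt.sqrt h.ne'))
    (mul_pos two_pos (Real.sqrt_pos.2 h)).ne'

/-- The components of the data are jointly smooth in (p, t, y). -/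
theorem kd_at {p0 : P354I.P3} {ε0 δ : ℝ} (h : IsG p0 k ε0 δ G) {q : (P354I.P3 × ℝ) × X}
    (hq : q.2 ≠ 0) (i j : Fin 3) :
    ContDiffAt ℝ ∞ (fun q : (P354I.P3 × ℝ) × X => (kd k G q.1.1 q.1.2).h q.2 i j) q ∧
      ContDiffAt ℝ ∞ (fun q : (P354I.P3 × ℝ) × X => (kd k G q.1.1 q.1.2).K q.2 i j) q := by
  have a : ContDiff ℝ ∞ fun r : (P354I.P3 × ℝ) × ℝ =>
      ((r.1.1, Real.exp (-k * r.1.2), r.2) : Y3) := by fun_prop
  exact ⟨ten_at (c := fun (r : P354I.P3 × ℝ) n z => cH G n (r.1, Real.exp (-k * r.2), z)) hq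
      (fun n => ((cH_sm h.smooth n).comp a).contDiffAt) i j,
    ten_at (c := fun (r : P354I.P3 × ℝ) n z => cK k G n (r.1, Real.exp (-k * r.2), z)) hq
      (fun n => ContDiffAt.comp (g := cK k G n) _ (cK_at h.smooth n
        (mul_pos (Real.exp_pos _) (h.pos _ _ _ (zh_mem _)).1)) a.contDiffAt) i j⟩

theorem nsq (y : X) : ‖y‖ ^ 2 = y 0 ^ 2 + y 1 ^ 2 + y 2 ^ 2 := by
  rw [← real_inner_self_eq_norm_sq, inner3]
  ring

theorem rnd_eq {y : X} (hy : y ≠ 0) (v : X) :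
    (1 - zh y ^ 2) * P354I.rnd y v v = dZ y v ^ 2 + dP y v ^ 2 := by
  have n0 := norm_ne_zero_iff.2 hy
  have e := nsq y
  simp only [zh, P354I.rnd, dZ, dP, dT, inner3]
  field_simp
  have e4 : ‖y‖ ^ 4 = (y 0 ^ 2 + y 1 ^ 2 + y 2 ^ 2) ^ 2 := by rw [← e]; ring
  ring_nf
  rw [e4, e]
  ring

theorem rnd_nn {y : X} (hy : y ≠ 0) (v : X) : 0 ≤ P354I.rnd y v v := by
  have n0 : 0 < ‖y‖ := norm_pos_iff.2 hy
  have := real_inner_mul_inner_self_le y v
  rw [real_inner_self_eq_norm_sq y] at this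
  rw [P354I.rnd, dT, div_mul_div_comm, sub_nonneg, div_le_div_iff₀ (by positivity) (by positivity)]
  nlinarith [mul_le_mul_of_nonneg_right this (sq_nonneg ‖y‖)]

theorem form_pos {a g1 g2 g3 β w T Z P R : ℝ} (ha : 0 < a) (h1 : 0 < g1) (hw : 0 ≤ w)
    (hd : 0 < g1 * (g1 + w * g2) - w ^ 2 * g3 ^ 2) (hR : w * R = Z ^ 2 + P ^ 2) (R0 : 0 ≤ R)
    (h0 : T = 0 → 0 < R) : 0 < a * T ^ 2 + g1 * (R - 2 * β * T * P + β ^ 2 * w * T ^ 2) +
      g2 * Z ^ 2 + 2 * g3 * (P - β * w * T) * Z := by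
  rcases hw.eq_or_lt with rfl | hw
  · have z0 : Z = 0 := by nlinarith [sq_nonneg Z, sq_nonneg P]
    have p0 : P = 0 := by nlinarith [sq_nonneg Z, sq_nonneg P]
    subst z0 p0
    by_cases c : T = 0
    · have := mul_pos h1 (h0 c)
      simpa [c] using this
    · have := mul_pos ha (sq_pos_of_ne_zero c)
      nlinarith [mul_nonneg h1.le R0]
  have k : g1 * w * (g1 * (R - 2 * β * T * P + β ^ 2 * w * T ^ 2) + g2 * Z ^ 2 +
      2 * g3 * (P - β * w * T) * Z) = (g1 * (P - β * w * T) + w * g3 * Z) ^ 2 +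
        (g1 * (g1 + w * g2) - w ^ 2 * g3 ^ 2) * Z ^ 2 := by
    linear_combination g1 ^ 2 * hR
  have gw := mul_pos h1 hw
  by_cases c : T = 0
  · subst c
    have r := mul_pos hw (h0 rfl)
    have q : 0 < (g1 * (P - β * w * 0) + w * g3 * Z) ^ 2 +
        (g1 * (g1 + w * g2) - w ^ 2 * g3 ^ 2) * Z ^ 2 := by
      by_cases z0 : Z = 0
      · have : P ≠ 0 := fun p0 => by simp [hR, z0, p0] at r
        simp only [z0, mul_zero, sub_zero, add_zero, sq (0 : ℝ)]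
        positivity
      · exact add_pos_of_nonneg_of_pos (sq_nonneg _) (mul_pos hd (sq_pos_of_ne_zero z0))
    have := (mul_pos_iff_of_pos_left gw).1 (k ▸ q)
    linarith [mul_nonneg ha.le (sq_nonneg (0 : ℝ))]
  · have b := mul_pos ha (sq_pos_of_ne_zero c)
    have := nonneg_of_mul_nonneg_right (k ▸ add_nonneg (sq_nonneg _)
      (mul_nonneg hd.le (sq_nonneg Z))) gw
    linarith

theorem sl_at {A : Type} [NormedAddCommGroup A] [NormedSpace ℝ A] {Θ : A × X → ℝ} {a : A} {y : X}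
    (h : ContDiffAt ℝ ∞ Θ (a, y)) : ContDiffAt ℝ ∞ (fun y => Θ (a, y)) y :=
  h.comp y (contDiffAt_const.prodMk contDiffAt_id)

theorem kd_h (p : P354I.P3) (t : ℝ) :
    (kd k G p t).h = ten fun n z => cH G n (p, Real.exp (-k * t), z) := rfl
theorem kd_K (p : P354I.P3) (t : ℝ) :
    (kd k G p t).K = ten fun n z => cK k G n (p, Real.exp (-k * t), z) := rfl

/-- **PDK.** -/
theorem pdk : PDK := fun p0 k ε0 δ G h p t => by
  refine ⟨fun i j => ⟨fun y hy => ?_, fun y hy => ?_⟩, fun y hy => ⟨?_, kd_K p t ▸ ten_symm _ y⟩⟩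
  · exact (sl_at (kd_at h (q := ((p, t), y)) hy i j).1).contDiffWithinAt
  · exact (sl_at (kd_at h (q := ((p, t), y)) hy i j).2).contDiffWithinAt
  rw [kd_h]
  refine P354T.posDef_of (ten_symm _ y) fun v hv => ?_
  obtain ⟨g0, g1, g2⟩ := h.pos p (Real.exp (-k * t)) _ (zh_mem y)
  have e := ten_sum (fun n z => cH G n (p, Real.exp (-k * t), z)) y (WithLp.toLp 2 v)
    (WithLp.toLp 2 v)
  have w0 : 0 ≤ 1 - zh y ^ 2 := by nlinarith [(zh_mem y).1, (zh_mem y).2]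
  have f := form_pos (β := bet G (p, Real.exp (-k * t), zh y)) (T := dT y (WithLp.toLp 2 v))
    (mul_pos (Real.exp_pos (-k * t)) g0) g1 w0 g2
    (rnd_eq hy (WithLp.toLp 2 v)) (rnd_nn hy _) fun c => by
      have : (WithLp.toLp 2 v : X) ≠ 0 := by simpa using hv
      rw [P354I.rnd, c, mul_zero, sub_zero]
      exact div_pos (real_inner_self_pos.2 this) (pow_pos (norm_pos_iff.2 hy) 2)
  refine f.trans_eq ?_
  simp only [Finset.sum_mul] at e
  rw [qf, Finset.sum_comm]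
  refine Eq.trans ?_ e.symm
  simp only [frm, cH, unt, hH]
  ring

end Vale.Agent.P354E3
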